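import Vale.Agent.P241.H808.Null2
import Vale.Agent.P241.H733.Defs

/-!
# P241: Claim T, the induction over the group

`claimT` : strong induction over the order of the group `W`. The inputs are the step
(`EulStep`: the map `X → PB.list (star (W/B), B ∈ l) × X` is `V`-null over `E_m`, where `l` is a list
of proper subgroups which does not depend on `m`) and the hypothesis that the class of
spaces in question is closed under restriction to subgroups.
-/

open CategoryTheory MonoidalCategory OnePoint Topology Vale.Agent.P251.St Vale.Agent.P251.G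
  Vale.Agent.P251.G.LC Vale.Agent.P241.St Vale.Agent.P241.H733 Vale.Agent.P241.H808

noncomputable section

namespace Vale.Agent.P241.H40

/-- the `m`-fold join of `W` -/
def EE (W : Type) [Group W] [Finite W] (m : ℕ) : GSpace W :=
  letI := Fintype.ofFinite W
  sphP W W m

instance (W : Type) [Group W] [Finite W] (m : ℕ) : CompactSpace (EE W m).carrier :=
  letI := Fintype.ofFinite W
  inferInstanceAs (CompactSpace (Sph W m))

section

variable {G : Type} [Group G]

/-- `(star I)^k` with the point `0` -/
def starPB (G : Type) [Group G] (I : Type) [Finite I] [MulAction G I] (k : ℕ) : PB G where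
  B := starP G I k
  b := (0 : Fin k → H733.Star I)
  fix _ := rfl

/-- `star (G/B)` -/
def starQ [Finite G] (B : Subgroup G) : PB G := starPB G (G ⧸ B) 1

/-- the product of a list of `G`-spaces with fixed points -/
abbrev plist (l : List (PB G)) : PB G := PB.list l

variable {V : TClass} {E : GSpace G} {X : GSpace G}

/-- there is a pointed `G`-map which preserves the distinguished fixed point -/
def Le (γ β : PB G) : Prop := ∃ f : PM γ.B β.B, f.at' (OnePoint.some γ.b) = OnePoint.some β.b

theorem Le.refl (b : PB G) : Le b b := ⟨PM.id _, rfl⟩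

theorem Le.trans {a b c : PB G} (h1 : Le a b) (h2 : Le b c) : Le a c := by
  obtain ⟨f, hf⟩ := h1
  obtain ⟨g, hg⟩ := h2
  exact ⟨f.comp g, by rw [PM.at_comp, hf, hg]⟩

theorem Le.prod {a b c d : PB G} (h1 : Le a b) (h2 : Le c d) : Le (a.prod c) (b.prod d) := by
  obtain ⟨f, hf⟩ := h1
  obtain ⟨g, hg⟩ := h2
  refine ⟨f.prod g, ?_⟩
  change (f.prod g).at' (sm (OnePoint.some a.b) (OnePoint.some c.b)) =
    sm (OnePoint.some b.b) (OnePoint.some d.b)
  rw [PM.at_prod, hf, hg]

theorem Le.ofClosed {a b : PB G} (f : a.B.carrier → b.B.carrier) (hf : IsClosedEmbedding f)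
    (hG : ∀ (g : G) (x : a.B.carrier), f (g • x) = g • f x) (h0 : f a.b = b.b) : Le a b :=
  ⟨PM.ofProper f hf.continuous hf.tendsto_cocompact hG, by rw [PM.at_ofProper, h0]⟩

/-- change of the spaces with fixed points -/
theorem Fact.mapLe {γ γ' β β' : PB G} (h1 : Le γ' γ) (h2 : Le β β') (h : Fact V E γ β X) :
    Fact V E γ' β' X := by
  obtain ⟨f, hf⟩ := h1
  obtain ⟨g, hg⟩ := h2
  exact h.map f hf g hg

/-- the product over a list -/
theorem Fact.list [CompactSpace E.carrier] {ι : Type*} (l : List ι) (f g : ι → PB G)
    (h : ∀ i ∈ l, Fact V E (f i) (g i) X) :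
    Fact V E (plist (l.map f)) (plist (l.map g)) X := Fact.prodList l f g h

theorem Le_append (I : Type) [Finite I] [MulAction G I] (k l : ℕ) :
    Le ((starPB G I k).prod (starPB G I l)) (starPB G I (k + l)) := by
  refine Le.ofClosed (a := (starPB G I k).prod (starPB G I l)) (b := starPB G I (k + l))
    (fun z : (Fin k → H733.Star I) × (Fin l → H733.Star I) => (Fin.append z.1 z.2 : Fin (k + l) → H733.Star I))
    ?_ ?_ ?_
  · refine Function.LeftInverse.isClosedEmbedding (f := fun z : Fin (k + l) → H733.Star I =>
      ((fun i => z (Fin.castAdd l i), fun i => z (Fin.natAdd k i)) :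
        (Fin k → H733.Star I) × (Fin l → H733.Star I))) ?_ ?_ ?_
    · rintro ⟨z, w⟩
      refine Prod.ext (funext fun i => ?_) (funext fun i => ?_)
      · exact Fin.append_left z w i
      · exact Fin.append_right z w i
    · exact (continuous_pi fun i => continuous_apply _).prodMk
        (continuous_pi fun i => continuous_apply _)
    · refine continuous_pi fun i => ?_
      refine Fin.addCases (fun j => ?_) (fun j => ?_) i
      · simp only [Fin.append_left]
        exact (continuous_apply j).comp continuous_fst
      · simp only [Fin.append_right]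
        exact (continuous_apply j).comp continuous_snd
  · rintro g ⟨z, w⟩
    refine funext fun i => ?_
    refine Fin.addCases (fun j => ?_) (fun j => ?_) i
    · exact (Fin.append_left (g • z) (g • w) j).trans
        (congrArg (g • ·) (Fin.append_left z w j)).symm
    · exact (Fin.append_right (g • z) (g • w) j).trans
        (congrArg (g • ·) (Fin.append_right z w j)).symm
  · refine funext fun i => ?_
    refine Fin.addCases (fun j => ?_) (fun j => ?_) i
    · exact Fin.append_left (0 : Fin k → H733.Star I) (0 : Fin l → H733.Star I) j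
    · exact Fin.append_right (0 : Fin k → H733.Star I) (0 : Fin l → H733.Star I) j

theorem Le_list (I : Type) [Finite I] [MulAction G I] (ks : List ℕ) :
    Le (plist (ks.map (starPB G I))) (starPB G I ks.sum) := by
  induction ks with
  | nil =>
    refine Le.ofClosed (a := pt G) (b := starPB G I 0) (fun _ : Unit => (0 : Fin 0 → H733.Star I))
      ?_ ?_ ?_
    · exact Function.LeftInverse.isClosedEmbedding (f := fun _ => ()) (fun _ => rfl)
        continuous_const continuous_const
    · intro g x
      rfl
    · rfl
  | cons k ks ih =>
    rw [List.map_cons, List.sum_cons]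
    exact Le.trans (Le.prod (Le.refl _) ih) (Le_append I k ks.sum)

/-- the half line maps to `star 1` -/
theorem Le_half (G : Type) [Group G] [Finite G] [Subsingleton G] :
    Le (hh G) (starPB G G 1) := by
  refine Le.ofClosed (a := hh G) (b := starPB G G 1)
    (fun t : NNReal => (fun _ => H733.Star.ray (1 : G) t : Fin 1 → H733.Star G)) ?_ ?_ ?_
  · refine (Homeomorph.funUnique (Fin 1) (H733.Star G)).symm.isClosedEmbedding.comp
      (H733.Star.isClosedEmbedding_ray (1 : G))
  · intro g x
    have hg : g = 1 := Subsingleton.elim _ _
    subst hg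
    exact (one_smul G (fun _ => H733.Star.ray (1 : G) x : Fin 1 → H733.Star G)).symm
  · funext i
    exact H733.Star.ray_zero 1

end

/-- restriction along a homomorphism -/
def resPB {G H : Type} [Group G] [Group H] (φ : H →* G) (b : PB G) : PB H where
  B := b.B.res φ
  b := b.b
  fix h := b.fix (φ h)

/-- What is needed of the calculus: a `B`-null-homotopy gives a map of `W`-spaces on
`star (W/B)`. -/
def Induce (V : TClass) : Prop :=
  ∀ (W : Type) [Group W] [Finite W] (B : Subgroup W) (E : GSpace W) (be : PB W) (X : GSpace W),
    CompactSpace E.carrier →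
    N V (E.res B.subtype) (resPB B.subtype be) (X.res B.subtype) → Fact V E (starQ B) be X

/-- the comparison of the models for `B` and for `W` -/
def CompE : Prop :=
  ∀ (W : Type) [Group W] [Finite W] (B : Subgroup W) (m : ℕ),
    ∃ f : (EE W m).carrier → (EE B m).carrier, Continuous f ∧
      ∀ (b : B) (x : (EE W m).carrier), f ((b : W) • x) = b • f x

/-- the comparison of the models for `B` and for `W` -/
def CompS : Prop :=
  ∀ (W : Type) [Group W] [Finite W] (B : Subgroup W) (k : ℕ),
    Le (starPB B B k) (resPB B.subtype (starPB W W k))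

/-- **Claim T**: the induction over the group. -/
theorem claimT (V : TClass) (hI : Induce V) (hE : CompE) (hS : CompS)
    (Hyp : ∀ (W : Type) [Group W] [Finite W], GSpace W → Prop)
    (hres : ∀ (W : Type) [Group W] [Finite W] (B : Subgroup W) (X : GSpace W), Hyp W X →
      Hyp B (X.res B.subtype))
    (hstep : ∀ (W : Type) [Group W] [Finite W] [Nontrivial W] (X : GSpace W), Hyp W X →
      ∃ l : List (Subgroup W), (∀ B ∈ l, B ≠ ⊤) ∧
        ∀ m, N V (EE W (m + 1)) (plist (l.map starQ)) X) :
    ∀ (n : ℕ) (W : Type) [Group W] [Finite W] (X : GSpace W), Nat.card W ≤ n → Hyp W X →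
      ∃ k, ∀ m, N V (EE W (m + 1)) (starPB W W k) X := by
  intro n
  induction n with
  | zero =>
    intro W _ _ X h
    exact absurd h (not_le.2 Nat.card_pos)
  | succ n ih =>
    intro W _ _ X hn hX
    rcases subsingleton_or_nontrivial W with hW | hW
    · refine ⟨1, fun m => ?_⟩
      exact Fact.mapLe (Le.refl _) (Le_half W) (Fact.refl V _ X)
    · obtain ⟨l, hl, hN⟩ := hstep W X hX
      have key : ∀ B ∈ l, ∃ k, ∀ m, Fact V (EE W (m + 1)) (starQ B) (starPB W W k) X := by
        intro B hB
        obtain ⟨k, hk⟩ := ih B (X.res B.subtype) (by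
          have h1 : Nat.card B < Nat.card W := by
            refine lt_of_le_of_ne (Nat.card_le_card_of_injective _ Subtype.val_injective)
              fun h => hl B hB ?_
            exact Subgroup.eq_top_of_card_eq B h
          omega) (hres W B X hX)
        refine ⟨k, fun m => hI W B _ _ X inferInstance ?_⟩
        obtain ⟨f, hf, hG⟩ := hE W B (m + 1)
        have h1 := Fact.mapLe (Le.refl _) (hS W B k) (hk m)
        have : CompactSpace ((EE W (m + 1)).res B.subtype).carrier :=
          inferInstanceAs (CompactSpace (EE W (m + 1)).carrier)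
        exact Fact.mapE (E' := (EE W (m + 1)).res B.subtype) (E := EE B (m + 1)) f hf hG h1
      choose! k hk using key
      refine ⟨(l.map k).sum, fun m => ?_⟩
      have h2 : Fact V (EE W (m + 1)) (plist (l.map starQ))
          (plist (l.map fun B => starPB W W (k B))) X :=
        Fact.list l _ _ fun B hB => hk B hB m
      have h3 := Le_list (G := W) W (l.map k)
      rw [List.map_map] at h3
      exact Fact.comp (hN m) (Fact.mapLe (Le.refl _) h3 h2)

end Vale.Agent.P241.H40
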