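import Vale.Agent.P241.H933.Comp
import Vale.Agent.P241.H933.Polar

/-!
# P241: Claim T from its two inputs

* `EulStar V Hyp` : the map `X^W → PB.list (star (W/B), B ∈ l) ∧ X^W` is null over `E_m`.
* `SharpStar V Hyp` : the same for the open cone `X ∪ X^W × [0, ∞)` over the point.
* `claim_fact` : the factorisation of Claim T over the point.
-/

open CategoryTheory MonoidalCategory OnePoint Topology Vale.Agent.P251.St Vale.Agent.P251.G
  Vale.Agent.P251.G.LC Vale.Agent.P241.St Vale.Agent.P241.H733 Vale.Agent.P241.H808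

noncomputable section

namespace Vale.Agent.P241.H40

section

variable {G : Type} [Group G]

theorem Le.unitL (b : PB G) : Le ((pt G).prod b) b := by
  refine ⟨PM.emb (X := ((pt G).prod b).B) (Y := b.B) p2 (fun w => pr (H808.tp (A := 𝟙_ LC) ()) w)
    (by fun_prop) (continuous_pr continuous_const continuous_id) (fun _ => rfl) (fun _ _ => rfl),
    rfl⟩

theorem Le.assoc (a b c : PB G) : Le ((a.prod b).prod c) (a.prod (b.prod c)) := by
  refine ⟨PM.emb (X := ((a.prod b).prod c).B) (Y := (a.prod (b.prod c)).B)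
    (fun z => pr (p1 (p1 z)) (pr (p2 (p1 z)) (p2 z)))
    (fun w => pr (pr (p1 w) (p1 (p2 w))) (p2 (p2 w)))
    (by fun_prop) (by fun_prop) (fun _ => rfl) (fun _ _ => rfl), rfl⟩

theorem Le_list_append (l l' : List (PB G)) :
    Le ((PB.list l).prod (PB.list l')) (PB.list (l ++ l')) := by
  induction l with
  | nil => exact Le.unitL _
  | cons a l ih => exact Le.trans (Le.assoc _ _ _) (Le.prod (Le.refl a) ih)

end

/-- Nullity of the Euler classes on the fixed points. -/
def EulStar (V : TClass) (Hyp : ∀ (W : Type) [Group W] [Finite W], GSpace W → Prop) : Prop :=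
  ∀ (W : Type) [Group W] [Finite W] [Nontrivial W] (X : GSpace W), Hyp W X →
    ∃ l : List (Subgroup W), (∀ B ∈ l, B ≠ ⊤) ∧
      ∀ m, N V (EE W (m + 1)) (PB.list (l.map starQ)) (GSpace.triv W (X.fix ⊤))

/-- Nullity of the Euler classes away from the fixed points. -/
def SharpStar (V : TClass) (Hyp : ∀ (W : Type) [Group W] [Finite W], GSpace W → Prop) : Prop :=
  ∀ (W : Type) [Group W] [Finite W] [Nontrivial W] (X : GSpace W), Hyp W X →
    ∃ Y : GSpace W, Nonempty (OpenCone X (GSpace.triv W (X.fix ⊤)) Y) ∧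
      ∃ l : List (Subgroup W), (∀ B ∈ l, B ≠ ⊤) ∧ N V (pt W).B (PB.list (l.map starQ)) Y

/-- the unit sphere of `(star W)^k` -/
def polarE (W : Type) [Group W] [Finite W] (k : ℕ) : Polar (starPB W W k) (EE W k) :=
  letI := Fintype.ofFinite W
  { f := fun e r => H933.polFun (e, r)
    cont := H933.continuous_polFun
    proper := H933.tendsto_polFun
    eqv := fun g s r => H933.polFun_smul g s r
    zero := fun s => H933.polFun_zero s
    inj := fun h => H933.polFun_eq h
    surj := fun d => by
      by_cases hd : d = (starPB W W k).b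
      · exact Or.inl hd
      · obtain ⟨e, he⟩ := H933.exists_polFun hd
        exact Or.inr ⟨e, _, he⟩ }

/-- **Claim T**, as a factorisation over the point. -/
theorem claim_fact {V : TClass} (hI : Induce V)
    {Hyp : ∀ (W : Type) [Group W] [Finite W], GSpace W → Prop}
    (hres : ∀ (W : Type) [Group W] [Finite W] (B : Subgroup W) (X : GSpace W), Hyp W X →
      Hyp B (X.res B.subtype)) (hE : EulStar V Hyp) (hS : SharpStar V Hyp)
    (W : Type) [Group W] [Finite W] (X : GSpace W) (hX : Hyp W X) :
    ∃ k, Fact V (pt W).B (starPB W W (k + 1)) (starPB W W k) X := by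
  obtain ⟨k, hk⟩ := claimT V hI H933.compE H933.compS Hyp hres (by
    intro W _ _ _ X hX
    obtain ⟨l, hl, h1⟩ := hE W X hX
    obtain ⟨Y, ⟨O⟩, l', hl', h2⟩ := hS W X hX
    refine ⟨l' ++ l, fun B hB => ?_, fun m => ?_⟩
    · rcases List.mem_append.1 hB with h | h
      · exact hl' B h
      · exact hl B h
    · have h3 := OpenCone.null O (h1 m) h2
      rw [List.map_append]
      exact Fact.mapLe (Le.refl _) (Le_list_append _ _) h3) (Nat.card W) W X le_rfl hX
  have hc : CompactSpace (pt W).B.carrier := inferInstanceAs (CompactSpace Unit)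
  have hc' : CompactSpace ((pt W).B.prod (EE W (k + 1))).carrier :=
    inferInstanceAs (CompactSpace (Unit × (EE W (k + 1)).carrier))
  refine ⟨k, ?_⟩
  refine Fact.polar (polarE W (k + 1)) ?_
  have h1 := hk k
  refine Fact.mapE (E' := (pt W).B.prod (EE W (k + 1))) (E := EE W (k + 1)) p2 (by fun_prop)
    (fun _ _ => rfl) h1

end Vale.Agent.P241.H40
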