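import Vale.Agent.P241.H132.Stage
import Vale.Agent.P241.H486.Fix

/-!
# P241: the hypothesis of Claim T is inherited by subgroups
-/

open CategoryTheory MonoidalCategory OnePoint Topology Vale.Agent.P251.St Vale.Agent.P241.St

noncomputable section

namespace Vale.Agent.P241.H40

variable {W : Type} [Group W]

/-- the fixed points of the restricted action -/
def fixRes (B : Subgroup W) (X : GSpace W) (V : Subgroup B) :
    (X.fix (V.map B.subtype)).carrier ≃ₜ ((X.res B.subtype).fix V).carrier where
  toFun x := ⟨x.1, fun v => x.2 ⟨(v : B), ⟨v, v.2, rfl⟩⟩⟩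
  invFun x := ⟨x.1, by
    rintro ⟨_, v, hv, rfl⟩
    exact x.2 ⟨v, hv⟩⟩
  left_inv _ := rfl
  right_inv _ := rfl
  continuous_toFun := continuous_induced_rng.2 continuous_subtype_val
  continuous_invFun := continuous_induced_rng.2 continuous_subtype_val

/-- restriction to subgroups preserves finite cell spaces -/
def ResGFC : Prop := ∀ (W : Type) [Group W] [Finite W] (B : Subgroup W) (X : GSpace W),
  GFC W X → GFC B (X.res B.subtype)

variable {T : SHCat} {S : Susp T}

theorem nearVan_res [Finite W] (hR : ResGFC) {K : ℕ → RingA T} {t : ℕ} (B : Subgroup W)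
    (X : GSpace W) (hX : GFC W X) (h : Final.NearVan S K t X) :
    Final.NearVan S K t (X.res B.subtype) := by
  intro V hV hab j hj
  have h1 : Acyclic (K j).obj (S.obj (X.fix (V.map B.subtype))) := by
    refine h (V.map B.subtype) ?_ ?_ j ?_
    · intro h0
      rw [Subgroup.map_eq_bot_iff_of_injective _ B.subtype_injective] at h0
      exact hV h0
    · rintro _ ⟨x, hx, rfl⟩ _ ⟨y, hy, rfl⟩
      rw [← map_mul, ← map_mul, hab x hx y hy]
    · rwa [Group.rank_congr (V.equivMapOfInjective B.subtype B.subtype_injective)] at hj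
  exact Final.acyclic_of_maps S (H486.fixFC W X hX _) (H486.fixFC B (X.res B.subtype) (hR W B X hX) V)
    (Final.mapOfHomeo (fixRes B X V)) (Final.mapOfHomeo (fixRes B X V).symm)
    (Final.mapOfHomeo_comp (fixRes B X V)) h1

variable (S) in
/-- The hypothesis of Claim T. -/
def HypT (p : ℕ) (K : ℕ → RingA T) (t : ℕ) : ∀ (W : Type) [Group W] [Finite W], GSpace W → Prop :=
  fun W _ _ X => IsPGroup p W ∧ GFC W X ∧ Final.NearVan S K t X

theorem hypT_res (hR : ResGFC) {p : ℕ} {K : ℕ → RingA T} {t : ℕ} :
    ∀ (W : Type) [Group W] [Finite W] (B : Subgroup W) (X : GSpace W), HypT S p K t W X →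
      HypT S p K t B (X.res B.subtype) := fun W _ _ B X h =>
  ⟨h.1.to_subgroup B, hR W B X h.2.1, nearVan_res hR B X h.2.1 h.2.2⟩

end Vale.Agent.P241.H40
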