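import Vale.Agent.P251.S.TensorShift

/-!
# P241: nullity calculus in a tensor triangulated category

`Mor T` : a morphism of `T` with its source and target.  `f * g` is the tensor product.
`Null f X` : `f ▷ X = 0`.

* `Null.ext` : `X ⟶ Y ⟶ Z ⟶` distinguished, `Null f X`, `Null g Z` imply `Null (f * g) Y`.
* `Null.step` : `F ⟶ 𝟙 -a⟶ A ⟶` distinguished, `Null (s * a) X`, `Null f (F ⊗ X)` imply
  `Null (s * f) X`.
* `Null.steps` : the same for finitely many factors.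
-/

set_option linter.unusedSectionVars false

open CategoryTheory MonoidalCategory Limits Pretriangulated

universe v u

namespace Vale.Agent.P241.H40

open Vale.Agent.P251 Vale.Agent.P251.T Vale.Agent.P251.S

variable {T : Type u} [Category.{v} T] [Preadditive T] [HasZeroObject T] [HasShift T ℤ]
  [∀ n : ℤ, (shiftFunctor T n).Additive] [Pretriangulated T]
  [MonoidalCategory T] [SymmetricCategory T] [TensorTriangulated T]

/-- A morphism with its source and target. -/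
structure Mor (T : Type u) [Category.{v} T] where
  /-- the source -/
  src : T
  /-- the target -/
  tgt : T
  /-- the morphism -/
  hom : src ⟶ tgt

namespace Mor

/-- the tensor product of morphisms -/
instance : Mul (Mor T) := ⟨fun f g => ⟨f.src ⊗ g.src, f.tgt ⊗ g.tgt, f.hom ⊗ₘ g.hom⟩⟩

/-- the identity of the unit -/
instance : One (Mor T) := ⟨⟨𝟙_ T, 𝟙_ T, 𝟙 _⟩⟩

/-- powers (right associated) -/
def npow (f : Mor T) : ℕ → Mor T
  | 0 => 1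
  | n + 1 => f * npow f n

instance : Pow (Mor T) ℕ := ⟨npow⟩

lemma pow_zero (f : Mor T) : f ^ 0 = 1 := rfl

lemma pow_succ (f : Mor T) (n : ℕ) : f ^ (n + 1) = f * f ^ n := rfl

/-- product of a list -/
def prod : List (Mor T) → Mor T
  | [] => 1
  | f :: l => f * prod l

lemma prod_cons (f : Mor T) (l : List (Mor T)) : prod (f :: l) = f * prod l := rfl

lemma mul_hom (f g : Mor T) : (f * g).hom = f.hom ⊗ₘ g.hom := rfl

/-- isomorphic morphisms -/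
def Eqv (f g : Mor T) : Prop :=
  ∃ (a : f.src ≅ g.src) (b : f.tgt ≅ g.tgt), f.hom ≫ b.hom = a.hom ≫ g.hom

namespace Eqv

lemma refl (f : Mor T) : Eqv f f := ⟨Iso.refl _, Iso.refl _, by simp⟩

lemma symm {f g : Mor T} (h : Eqv f g) : Eqv g f := by
  obtain ⟨a, b, h⟩ := h
  exact ⟨a.symm, b.symm, by simp [Iso.eq_inv_comp, ← reassoc_of% h]⟩

lemma trans {f g h : Mor T} (p : Eqv f g) (q : Eqv g h) : Eqv f h := by
  obtain ⟨a, b, p⟩ := p
  obtain ⟨c, d, q⟩ := q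
  exact ⟨a ≪≫ c, b ≪≫ d, by simp [reassoc_of% p, q]⟩

lemma mul {f f' g g' : Mor T} (p : Eqv f f') (q : Eqv g g') : Eqv (f * g) (f' * g') := by
  obtain ⟨a, b, p⟩ := p
  obtain ⟨c, d, q⟩ := q
  refine ⟨a ⊗ᵢ c, b ⊗ᵢ d, ?_⟩
  change (f.hom ⊗ₘ g.hom) ≫ (b.hom ⊗ₘ d.hom) = (a.hom ⊗ₘ c.hom) ≫ (f'.hom ⊗ₘ g'.hom)
  rw [tensorHom_comp_tensorHom, tensorHom_comp_tensorHom, p, q]

lemma comm (f g : Mor T) : Eqv (f * g) (g * f) :=
  ⟨β_ _ _, β_ _ _, BraidedCategory.braiding_naturality _ _⟩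

lemma assoc (f g h : Mor T) : Eqv (f * g * h) (f * (g * h)) :=
  ⟨α_ _ _ _, α_ _ _ _, associator_naturality _ _ _⟩

lemma one_mul (f : Mor T) : Eqv (1 * f) f :=
  ⟨λ_ _, λ_ _, by
    change (𝟙 (𝟙_ T) ⊗ₘ f.hom) ≫ (λ_ _).hom = (λ_ _).hom ≫ f.hom
    simp⟩

lemma mul_one (f : Mor T) : Eqv (f * 1) f :=
  ⟨ρ_ _, ρ_ _, by
    change (f.hom ⊗ₘ 𝟙 (𝟙_ T)) ≫ (ρ_ _).hom = (ρ_ _).hom ≫ f.hom
    simp⟩

/-- `(f * g) * h ≅ g * (f * h)` -/
lemma left_comm' (f g h : Mor T) : Eqv (f * g * h) (g * (f * h)) :=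
  (mul (comm f g) (refl h)).trans (assoc g f h)

lemma left_comm (f g h : Mor T) : Eqv (f * (g * h)) (g * (f * h)) :=
  (assoc f g h).symm.trans (left_comm' f g h)

lemma pow_add (f : Mor T) (m n : ℕ) : Eqv (f ^ (m + n)) (f ^ m * f ^ n) := by
  induction m with
  | zero => rw [Nat.zero_add]; exact (one_mul _).symm
  | succ m ih =>
    rw [Nat.succ_add, pow_succ, pow_succ]
    exact (mul (refl f) ih).trans (assoc _ _ _).symm

end Eqv

end Mor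

/-- `f ⊗ X = 0` -/
def Null (f : Mor T) (X : T) : Prop := f.hom ▷ X = 0

namespace Null

variable {f g s : Mor T} {X Y Z : T}

lemma of_hom_eq_zero (h : f.hom = 0) (X : T) : Null f X := by
  rw [Null, h, MonoidalPreadditive.zero_whiskerRight]

lemma congr (e : Mor.Eqv f g) (h : Null f X) : Null g X := by
  obtain ⟨a, b, e⟩ := e
  have e' : g.hom = a.inv ≫ f.hom ≫ b.hom := by rw [e]; simp
  rw [Null, e', comp_whiskerRight, comp_whiskerRight, h, zero_comp, comp_zero]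

lemma congr_iff (e : Mor.Eqv f g) : Null f X ↔ Null g X := ⟨congr e, congr e.symm⟩

/-- invariance under retracts -/
lemma retract (h : Null f X) (i : Y ⟶ X) (r : X ⟶ Y) (hir : i ≫ r = 𝟙 Y) : Null f Y := by
  have : f.hom ▷ Y = (f.src ◁ i) ≫ (f.hom ▷ X) ≫ (f.tgt ◁ r) := by
    rw [← whisker_exchange, ← whiskerLeft_comp_assoc, hir]
    simp
  rw [Null, this, h, zero_comp, comp_zero]

lemma iso (h : Null f X) (e : X ≅ Y) : Null f Y := h.retract e.inv e.hom e.inv_hom_id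

lemma tensor_right (h : Null f X) (Y : T) : Null f (X ⊗ Y) := by
  have : f.hom ▷ (X ⊗ Y) = (α_ _ _ _).inv ≫ (f.hom ▷ X) ▷ Y ≫ (α_ _ _ _).hom := by
    simp
  rw [Null, this, h, MonoidalPreadditive.zero_whiskerRight, zero_comp, comp_zero]

lemma tensor_left (h : Null f X) (Y : T) : Null f (Y ⊗ X) :=
  (h.tensor_right Y).iso (β_ X Y)

/-- post-composition -/
lemma comp_right {A B C : T} {φ : A ⟶ B} (h : Null ⟨A, B, φ⟩ X) (ψ : B ⟶ C) :
    Null ⟨A, C, φ ≫ ψ⟩ X := by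
  change (φ ≫ ψ) ▷ X = 0
  rw [comp_whiskerRight, show φ ▷ X = 0 from h, zero_comp]

/-- pre-composition -/
lemma comp_left {A B C : T} {ψ : B ⟶ C} (φ : A ⟶ B) (h : Null ⟨B, C, ψ⟩ X) :
    Null ⟨A, C, φ ≫ ψ⟩ X := by
  change (φ ≫ ψ) ▷ X = 0
  rw [comp_whiskerRight, show ψ ▷ X = 0 from h, comp_zero]

lemma mul_left_mor (h : Null g X) (f : Mor T) : Null (f * g) X := by
  have h1 : (f * g).hom = (f.hom ▷ g.src) ≫ (f.tgt ◁ g.hom) := by
    rw [Mor.mul_hom, MonoidalCategory.tensorHom_def]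
  have h2 : (f.tgt ◁ g.hom) ▷ X = (α_ _ _ _).hom ≫ f.tgt ◁ (g.hom ▷ X) ≫ (α_ _ _ _).inv := by
    simp
  rw [Null, h1, comp_whiskerRight, h2, show g.hom ▷ X = 0 from h,
    MonoidalPreadditive.whiskerLeft_zero, zero_comp, comp_zero, comp_zero]

lemma mul_right_mor (h : Null f X) (g : Mor T) : Null (f * g) X :=
  (h.mul_left_mor g).congr (Mor.Eqv.comm g f)

/-- `(f * g) ▷ Y` computed in two steps -/
lemma mul_whiskerRight (f g : Mor T) (Y : T) : (f * g).hom ▷ Y =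
    (α_ _ _ _).hom ≫ (f.src ◁ (g.hom ▷ Y)) ≫ (f.hom ▷ (g.tgt ⊗ Y)) ≫ (α_ _ _ _).inv := by
  rw [Mor.mul_hom, MonoidalCategory.tensorHom_def']
  simp

/-- the product lemma in the form: if `g ▷ Y` factors through `E ⊗ X`, on which `f` is null -/
lemma mul_of_factor (h : Null f X) {k : X ⟶ Y} (s' : g.src ⊗ Y ⟶ g.tgt ⊗ X)
    (hs : g.hom ▷ Y = s' ≫ (g.tgt ◁ k)) : Null (f * g) Y := by
  have h0 : Null f (g.tgt ⊗ X) := h.tensor_left _
  have h1 : (f.src ◁ (g.tgt ◁ k)) ≫ (f.hom ▷ (g.tgt ⊗ Y)) =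
      (f.hom ▷ (g.tgt ⊗ X)) ≫ (f.tgt ◁ (g.tgt ◁ k)) := whisker_exchange _ _
  rw [Null, mul_whiskerRight, hs, whiskerLeft_comp]
  simp only [Category.assoc]
  rw [reassoc_of% h1, show f.hom ▷ (g.tgt ⊗ X) = 0 from h0]
  simp

/-- **Extensions.** -/
theorem ext {Δ : Triangle T} (hΔ : Δ ∈ distTriang T) (h1 : Null f Δ.obj₁) (h3 : Null g Δ.obj₃) :
    Null (f * g) Δ.obj₂ := by
  have hE := dist_whiskerLeft g.tgt hΔ
  have h0 : (g.hom ▷ Δ.obj₂) ≫ (g.tgt ◁ Δ.mor₂) = 0 := by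
    rw [← whisker_exchange, show g.hom ▷ Δ.obj₃ = 0 from h3, comp_zero]
  obtain ⟨s', hs⟩ := Triangle.coyoneda_exact₂ _ hE (g.hom ▷ Δ.obj₂) h0
  exact mul_of_factor h1 s' hs

/-- extensions with explicit maps -/
theorem ext' {u : X ⟶ Y} {w : Y ⟶ Z} {d : Z ⟶ X⟦(1 : ℤ)⟧} (hΔ : Triangle.mk u w d ∈ distTriang T)
    (h1 : Null f X) (h3 : Null g Z) : Null (f * g) Y :=
  ext hΔ h1 h3

lemma shift (h : Null f X) (n : ℤ) : Null f (X⟦n⟧) :=
  (h.tensor_right ((𝟙_ T)⟦n⟧)).iso (tensorSph n X)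

lemma of_shift {n : ℤ} (h : Null f (X⟦n⟧)) : Null f X :=
  (h.shift (-n)).iso ((shiftFunctorCompIsoId T n (-n) (by simp)).app X)

lemma of_isZero (h : IsZero X) : Null f X := by
  have h1 : 𝟙 X = 0 := h.eq_of_src _ _
  have h2 : f.hom ▷ X = f.hom ▷ X ≫ f.tgt ◁ 𝟙 X := by simp
  rw [Null, h2, h1, MonoidalPreadditive.whiskerLeft_zero, comp_zero]

lemma of_isZero_tgt (h : IsZero f.tgt) : Null f X :=
  of_hom_eq_zero (h.eq_of_tgt _ _) X

end Null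

/-- A morphism `a : 𝟙 ⟶ A` together with its fibre. -/
structure Cut (T : Type u) [Category.{v} T] [Preadditive T] [HasZeroObject T] [HasShift T ℤ]
    [∀ n : ℤ, (shiftFunctor T n).Additive] [Pretriangulated T] [MonoidalCategory T] where
  /-- the fibre -/
  F : T
  /-- the target -/
  A : T
  /-- the inclusion of the fibre -/
  i : F ⟶ 𝟙_ T
  /-- the morphism -/
  a : 𝟙_ T ⟶ A
  /-- the boundary -/
  d : A ⟶ F⟦(1 : ℤ)⟧
  dist : Triangle.mk i a d ∈ distTriang T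

/-- the morphism of a cut -/
def Cut.mor (c : Cut T) : Mor T := ⟨𝟙_ T, c.A, c.a⟩

namespace Null

variable {f g s : Mor T} {X Y Z : T}

/-- If `s * a` is null on `X` and `f` is null on `F ⊗ X`, `F` the fibre of `a`, then `s * f` is
null on `X`. -/
theorem step (c : Cut T) (h : Null (s * c.mor) X) (hf : Null f (c.F ⊗ X)) : Null (s * f) X := by
  have hT := dist_whiskerLeft s.tgt (dist_whiskerRight X c.dist)
  have h0 : ((s.hom ▷ X) ≫ (s.tgt ◁ (λ_ X).inv)) ≫ (s.tgt ◁ (c.a ▷ X)) = 0 := by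
    have h1 : ((ρ_ s.src).inv ▷ X) ≫ ((s.hom ⊗ₘ c.a) ▷ X) ≫ (α_ _ _ _).hom =
        ((s.hom ▷ X) ≫ (s.tgt ◁ (λ_ X).inv)) ≫ (s.tgt ◁ (c.a ▷ X)) := by
      rw [MonoidalCategory.tensorHom_def]
      monoidal
    rw [← h1, show (s.hom ⊗ₘ c.a) ▷ X = 0 from h, zero_comp, comp_zero]
  obtain ⟨s', hs⟩ : ∃ s' : s.src ⊗ X ⟶ s.tgt ⊗ (c.F ⊗ X),
      (s.hom ▷ X) ≫ (s.tgt ◁ (λ_ X).inv) = s' ≫ (s.tgt ◁ (c.i ▷ X)) :=
    Triangle.coyoneda_exact₂ _ hT _ h0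
  have hs2 : s.hom ▷ X = s' ≫ (s.tgt ◁ ((c.i ▷ X) ≫ (λ_ X).hom)) := by
    rw [whiskerLeft_comp, ← reassoc_of% hs, ← whiskerLeft_comp, Iso.inv_hom_id,
      whiskerLeft_id, Category.comp_id]
  exact (mul_of_factor hf s' hs2).congr (Mor.Eqv.comm f s)

/-- **Finitely many steps.** -/
theorem steps (l : List (Cut T × Mor T)) (hl : ∀ p ∈ l, Null p.2 (p.1.F ⊗ X))
    (h : Null (s * Mor.prod (l.map fun p => p.1.mor)) X) :
    Null (s * Mor.prod (l.map fun p => p.2)) X := by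
  induction l generalizing s with
  | nil => exact h
  | cons p l ih =>
    rw [List.map_cons, Mor.prod_cons] at h ⊢
    have h1 : Null ((s * Mor.prod (l.map fun p => p.1.mor)) * p.1.mor) X := by
      refine h.congr ?_
      exact (Mor.Eqv.mul (Mor.Eqv.refl s) (Mor.Eqv.comm _ _)).trans (Mor.Eqv.assoc _ _ _).symm
    have h2 := step p.1 h1 (hl p List.mem_cons_self)
    have h3 : Null ((p.2 * s) * Mor.prod (l.map fun p => p.1.mor)) X :=
      h2.congr ((Mor.Eqv.comm _ _).trans (Mor.Eqv.assoc _ _ _).symm)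
    have h4 := ih (fun q hq => hl q (List.mem_cons_of_mem _ hq)) h3
    exact h4.congr (Mor.Eqv.left_comm' _ _ _ |>.trans (Mor.Eqv.refl _))

end Null

/-! ### Nullity up to a multiplicative class -/

/-- A class of morphisms closed under products. -/
structure MulClass (T : Type u) [Category.{v} T] [MonoidalCategory T] where
  /-- the class -/
  mem : Mor T → Prop
  mul : ∀ {v w : Mor T}, mem v → mem w → mem (v * w)
  one : ∃ v, mem v

variable (𝒱 : MulClass T)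

/-- `f` is null on `X` up to an element of the class `𝒱` -/
def Tor (f : Mor T) (X : T) : Prop := ∃ v, 𝒱.mem v ∧ Null (v * f) X

namespace Tor

variable {𝒱} {f g s : Mor T} {X Y Z : T}

lemma of_null (h : Null f X) : Tor 𝒱 f X := by
  obtain ⟨v, hv⟩ := 𝒱.one
  exact ⟨v, hv, h.mul_left_mor v⟩

lemma congr (e : Mor.Eqv f g) (h : Tor 𝒱 f X) : Tor 𝒱 g X := by
  obtain ⟨v, hv, h⟩ := h
  exact ⟨v, hv, h.congr (Mor.Eqv.mul (Mor.Eqv.refl v) e)⟩

lemma retract (h : Tor 𝒱 f X) (i : Y ⟶ X) (r : X ⟶ Y) (hir : i ≫ r = 𝟙 Y) : Tor 𝒱 f Y := by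
  obtain ⟨v, hv, h⟩ := h
  exact ⟨v, hv, h.retract i r hir⟩

lemma iso (h : Tor 𝒱 f X) (e : X ≅ Y) : Tor 𝒱 f Y := h.retract e.inv e.hom e.inv_hom_id

lemma tensor_right (h : Tor 𝒱 f X) (Y : T) : Tor 𝒱 f (X ⊗ Y) := by
  obtain ⟨v, hv, h⟩ := h
  exact ⟨v, hv, h.tensor_right Y⟩

lemma tensor_left (h : Tor 𝒱 f X) (Y : T) : Tor 𝒱 f (Y ⊗ X) := by
  obtain ⟨v, hv, h⟩ := h
  exact ⟨v, hv, h.tensor_left Y⟩

lemma shift (h : Tor 𝒱 f X) (n : ℤ) : Tor 𝒱 f (X⟦n⟧) := by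
  obtain ⟨v, hv, h⟩ := h
  exact ⟨v, hv, h.shift n⟩

lemma mul_left_mor (h : Tor 𝒱 g X) (f : Mor T) : Tor 𝒱 (f * g) X := by
  obtain ⟨v, hv, h⟩ := h
  exact ⟨v, hv, (h.mul_left_mor f).congr (Mor.Eqv.left_comm _ _ _)⟩

lemma mul_right_mor (h : Tor 𝒱 f X) (g : Mor T) : Tor 𝒱 (f * g) X :=
  (h.mul_left_mor g).congr (Mor.Eqv.comm g f)

lemma pow_le {m n : ℕ} (h : Tor 𝒱 (f ^ m) X) (hmn : m ≤ n) : Tor 𝒱 (f ^ n) X := by
  obtain ⟨k, rfl⟩ := Nat.exists_eq_add_of_le hmn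
  exact (h.mul_right_mor (f ^ k)).congr (Mor.Eqv.pow_add f m k).symm

/-- `(v * f) * (w * g) ≅ (v * w) * (f * g)` -/
lemma mul_mul_mul_comm (v f w g : Mor T) : Mor.Eqv ((v * f) * (w * g)) ((v * w) * (f * g)) :=
  (Mor.Eqv.assoc v f (w * g)).trans
    ((Mor.Eqv.mul (Mor.Eqv.refl v) (Mor.Eqv.left_comm f w g)).trans (Mor.Eqv.assoc v w (f * g)).symm)

/-- **Extensions.** -/
theorem ext {Δ : Triangle T} (hΔ : Δ ∈ distTriang T) (h1 : Tor 𝒱 f Δ.obj₁)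
    (h3 : Tor 𝒱 g Δ.obj₃) : Tor 𝒱 (f * g) Δ.obj₂ := by
  obtain ⟨v, hv, h1⟩ := h1
  obtain ⟨w, hw, h3⟩ := h3
  exact ⟨v * w, 𝒱.mul hv hw, (Null.ext hΔ h1 h3).congr (mul_mul_mul_comm v f w g)⟩

theorem ext' {u : X ⟶ Y} {w : Y ⟶ Z} {d : Z ⟶ X⟦(1 : ℤ)⟧} (hΔ : Triangle.mk u w d ∈ distTriang T)
    (h1 : Tor 𝒱 f X) (h3 : Tor 𝒱 g Z) : Tor 𝒱 (f * g) Y :=
  ext hΔ h1 h3

theorem step (c : Cut T) (h : Tor 𝒱 (s * c.mor) X) (hf : Tor 𝒱 f (c.F ⊗ X)) :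
    Tor 𝒱 (s * f) X := by
  obtain ⟨v, hv, h⟩ := h
  obtain ⟨w, hw, hf⟩ := hf
  have h1 : Null ((v * s) * c.mor) X := h.congr (Mor.Eqv.assoc v s c.mor).symm
  exact ⟨v * w, 𝒱.mul hv hw, (Null.step c h1 hf).congr (mul_mul_mul_comm v s w f)⟩

/-- **Finitely many steps.** -/
theorem steps (l : List (Cut T × Mor T)) (hl : ∀ p ∈ l, Tor 𝒱 p.2 (p.1.F ⊗ X))
    (h : Tor 𝒱 (s * Mor.prod (l.map fun p => p.1.mor)) X) :
    Tor 𝒱 (s * Mor.prod (l.map fun p => p.2)) X := by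
  induction l generalizing s with
  | nil => exact h
  | cons p l ih =>
    rw [List.map_cons, Mor.prod_cons] at h ⊢
    have h1 : Tor 𝒱 ((s * Mor.prod (l.map fun p => p.1.mor)) * p.1.mor) X := by
      refine h.congr ?_
      exact (Mor.Eqv.mul (Mor.Eqv.refl s) (Mor.Eqv.comm _ _)).trans (Mor.Eqv.assoc _ _ _).symm
    have h2 := step p.1 h1 (hl p List.mem_cons_self)
    have h3 : Tor 𝒱 ((p.2 * s) * Mor.prod (l.map fun p => p.1.mor)) X :=
      h2.congr ((Mor.Eqv.comm _ _).trans (Mor.Eqv.assoc _ _ _).symm)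
    have h4 := ih (fun q hq => hl q (List.mem_cons_of_mem _ hq)) h3
    exact h4.congr (Mor.Eqv.left_comm' _ _ _)

end Tor

end Vale.Agent.P241.H40
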