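import Vale.Agent.P241.H40.NearRes
import Vale.Agent.P241.H32.Weyl

/-!
# P241: the class of spaces of Claim T is closed under restriction to subgroups
-/

open Vale.Agent.P251.St Vale.Agent.P241.St

namespace Vale.Agent.P241.H40

theorem resGFC : ResGFC := fun _ _ _ B _ hX => H32.gfc_res B.subtype hX

variable {T : SHCat} {S : Susp T}

theorem hypT_res' {p : ℕ} {K : ℕ → RingA T} {t : ℕ} :
    ∀ (W : Type) [Group W] [Finite W] (B : Subgroup W) (X : GSpace W), HypT S p K t W X →
      HypT S p K t B (X.res B.subtype) := hypT_res resGFC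

end Vale.Agent.P241.H40
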